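import Vale.Agent.P225I45.St
import Vale.Agent.P225I45.Fin

namespace Vale.Agent.Results.P225.AAIntrinsic

open Vale.Agent.P225J

/-- Q1 is false in every even dimension `n ≥ 12`, for all large `k`, by a fixed factor, and for
metrics on `ℝⁿ` arbitrarily close to the flat one. -/
theorem result (n : ℕ) (hn : Even n) (h12 : 12 ≤ n) :
    ¬ Yau (EuclideanSpace ℝ (Fin n)) n ∧ ∀ ε : ℝ, 0 < ε → ∃ c : ℝ, 0 < c ∧ ∃ k₀ : ℕ,
      ∀ k : ℕ, k₀ ≤ k → Fails (EuclideanSpace ℝ (Fin n)) n ε c k :=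
  fin n hn h12

end Vale.Agent.Results.P225.AAIntrinsic
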